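import Vale.Agent.P139Z.ExtP

/-! Uniform convergence lemmas for the family of profiles. -/

open Set Filter Topology MeasureTheory Complex
open scoped NNReal ENNReal ComplexConjugate ContDiff

namespace Vale.Agent.P139Z.Family

theorem unif {X : Type} [MetricSpace X] {s : Set X} {F : X → ℝ → ℂ} {V : Set ℝ}
    (hV : IsCompact V) (hF : ContinuousOn (fun q : X × ℝ => F q.1 q.2) (s ×ˢ V)) {p : ℕ → X}
    {p₀ : X} (hp : ∀ j, p j ∈ s) (h0 : p₀ ∈ s) (h : Tendsto p atTop (𝓝 p₀)) {ε : ℝ} (hε : 0 < ε) :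
    ∀ᶠ j in atTop, ∀ ρ ∈ V, ‖F (p j) ρ - F p₀ ρ‖ ≤ ε := by
  have hs : insert p₀ (range p) ⊆ s := insert_subset h0 (range_subset_iff.2 hp)
  have h1 := ((h.isCompact_insert_range.prod hV).uniformContinuousOn_of_continuous
    (hF.mono (prod_mono hs subset_rfl))).tendstoUniformlyOn (F := F) (mem_insert _ _)
  have h2 : Tendsto p atTop (𝓝[insert p₀ (range p)] p₀) := tendsto_nhdsWithin_iff.2
    ⟨h, Eventually.of_forall fun j => mem_insert_of_mem _ (mem_range_self j)⟩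
  filter_upwards [h2.eventually (Metric.tendstoUniformlyOn_iff.1 h1 ε hε)] with j hj ρ hρ
  rw [← dist_eq_norm, dist_comm]
  exact (hj ρ hρ).le

theorem ext_conv {Φ : ℝ → ℝ → ℂ}
    (hΦ : ContinuousOn (fun p : ℝ × ℝ => Φ p.1 p.2) ({β | InB β} ×ˢ Ioi 0)) {β x a η : ℕ → ℝ}
    {ζ : ℕ → ℂ} {e : ℕ → ℝ → ℂ} {βi xi : ℝ} {ζi : ℂ} (hβ : ∀ j, InB (β j)) (hβi : InB βi)
    (tβ : Tendsto β atTop (𝓝 βi)) (tx : Tendsto x atTop (𝓝 xi)) (tζ : Tendsto ζ atTop (𝓝 ζi))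
    (ta : Tendsto a atTop (𝓝 0)) (tη : Tendsto η atTop (𝓝 0)) (ha : ∀ j, 0 ≤ a j)
    (hζ : ∀ j, ‖ζ j‖ = 1)
    (h : ∀ j, ∀ ρ : ℝ, 11.2 ≤ ρ → ‖((ρ ^ a j : ℝ) : ℂ) * e j ρ - x j * Φ (β j) ρ‖ ≤ η j)
    (R : ℝ) {ε : ℝ} (hε : 0 < ε) :
    ∀ᶠ j in atTop, ∀ ρ ∈ Icc (11.2 : ℝ) R, ‖ζ j * e j ρ - ζi * xi * Φ βi ρ‖ ≤ ε := by
  have hpos : ∀ ρ ∈ Icc (11.2 : ℝ) R, 0 < ρ := fun ρ hρ => lt_of_lt_of_le (by norm_num) hρ.1
  have h1 := unif (X := ℝ × ℝ × ℝ × ℂ) (s := {q | InB q.1})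
    (F := fun q ρ => q.2.2.2 * q.2.1 * ((ρ ^ (-q.2.2.1) : ℝ) : ℂ) * Φ q.1 ρ)
    (isCompact_Icc (a := (11.2 : ℝ)) (b := R)) (by
      refine (ContinuousOn.mul (by fun_prop) ?_).mul ?_
      · exact continuous_ofReal.comp_continuousOn (ContinuousOn.rpow (by fun_prop) (by fun_prop)
          fun q hq => .inl (hpos _ hq.2).ne')
      · exact hΦ.comp (f := fun q : (ℝ × ℝ × ℝ × ℂ) × ℝ => (q.1.1, q.2)) (by fun_prop)
          fun q hq => ⟨hq.1, hpos _ hq.2⟩)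
    (p := fun j => (β j, x j, a j, ζ j)) (p₀ := (βi, xi, 0, ζi)) hβ hβi
    (tβ.prodMk_nhds (tx.prodMk_nhds (ta.prodMk_nhds tζ))) (half_pos hε)
  filter_upwards [h1, tη.eventually (eventually_le_nhds (half_pos hε))] with j h2 h3 ρ hρ
  have h4 := h2 ρ hρ
  simp only [neg_zero, Real.rpow_zero, ofReal_one, mul_one] at h4
  have h5 : ((ρ ^ (-a j) : ℝ) : ℂ) * ((ρ ^ a j : ℝ) : ℂ) = 1 := by
    rw [← ofReal_mul, ← Real.rpow_add (hpos ρ hρ), neg_add_cancel, Real.rpow_zero, ofReal_one]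
  have h6 : ζ j * e j ρ - ζi * xi * Φ βi ρ =
      ζ j * ((ρ ^ (-a j) : ℝ) : ℂ) * (((ρ ^ a j : ℝ) : ℂ) * e j ρ - x j * Φ (β j) ρ) +
        (ζ j * x j * ((ρ ^ (-a j) : ℝ) : ℂ) * Φ (β j) ρ - ζi * xi * Φ βi ρ) := by
    linear_combination (-ζ j * e j ρ) * h5
  have h7 : ‖((ρ ^ (-a j) : ℝ) : ℂ)‖ ≤ 1 := by
    rw [norm_real, Real.norm_of_nonneg (Real.rpow_nonneg (hpos ρ hρ).le _)]
    exact Real.rpow_le_one_of_one_le_of_nonpos (le_trans (by norm_num) hρ.1) (neg_nonpos.2 (ha j))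
  rw [h6]
  refine (norm_add_le _ _).trans ?_
  rw [norm_mul, norm_mul, hζ j, one_mul]
  have h8 := mul_le_of_le_one_left
    (norm_nonneg (((ρ ^ a j : ℝ) : ℂ) * e j ρ - x j * Φ (β j) ρ)) h7
  linarith [h j ρ hρ.1]

/-- The free solutions with value one and derivative zero at `T`, jointly continuous. -/
theorem exists_W : ∃ W : ℝ × ℝ → ℝ → ℂ,
    (∀ p : ℝ × ℝ, 0 < p.2 → ContDiffOn ℝ ∞ (W p) (Ioi 0) ∧
      (∀ ρ : ℝ, 0 < ρ → Mop (-I * p.1) 6 (W p) ρ = 0) ∧ W p p.2 = 1 ∧ deriv (W p) p.2 = 0) ∧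
    ContinuousOn (fun q : (ℝ × ℝ) × ℝ => W q.1 q.2) ({p | 0 < p.2} ×ˢ Ioi 0) ∧
    ContinuousOn (fun q : (ℝ × ℝ) × ℝ => deriv (W q.1) q.2) ({p | 0 < p.2} ×ˢ Ioi 0) := by
  choose! W hW using fun (p : ℝ × ℝ) (hp : 0 < p.2) =>
    exists_free (-I * p.1) 6 (S := fun _ => 0) contDiffOn_const hp 1 0
  refine ⟨W, hW, free_cont (A := fun p : ℝ × ℝ => -I * p.1) (by fun_prop) 6
    (fun p hp => (hW p hp).1.of_le (by decide)) (fun p hp => (hW p hp).2.1)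
    (T := fun p => p.2) (by fun_prop) (fun p hp => hp) ?_ ?_⟩
  · exact continuousOn_const.congr fun p hp => (hW p hp).2.2.1
  · exact continuousOn_const.congr fun p hp => (hW p hp).2.2.2

/-- Gluing of the two regimes across the moving point. -/
theorem glue {g : ℕ → ℝ → ℂ} {u v : ℝ → ℂ} {T : ℕ → ℝ} {T₀ a b : ℝ}
    (tT : Tendsto T atTop (𝓝 T₀)) (hu : ContinuousAt u T₀) (hv : ContinuousAt v T₀)
    (huv : u T₀ = v T₀) (ha : a < T₀) (hb : T₀ < b)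
    (h1 : ∀ ε : ℝ, 0 < ε → ∀ᶠ j in atTop, ∀ ρ ∈ Icc a (T j), ‖g j ρ - u ρ‖ ≤ ε)
    (h2 : ∀ ε : ℝ, 0 < ε → ∀ᶠ j in atTop, ∀ ρ ∈ Icc (T j) b, ‖g j ρ - v ρ‖ ≤ ε) :
    TendstoUniformlyOn g u atTop (Icc a T₀) ∧ TendstoUniformlyOn g v atTop (Icc T₀ b) := by
  have h3 : ∀ ε : ℝ, 0 < ε → ∀ᶠ j in atTop, ∀ ρ ∈ uIcc (T j) T₀, ‖u ρ - v ρ‖ ≤ ε := by
    intro ε hε
    have h4 : ∀ᶠ ρ in 𝓝 T₀, ‖u ρ - v ρ‖ ≤ ε :=
      (hu.sub hv).norm.eventually (eventually_le_nhds (by simpa [huv] using hε))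
    obtain ⟨δ, hδ, h5⟩ := Metric.eventually_nhds_iff.1 h4
    filter_upwards [Metric.tendsto_nhds.1 tT δ hδ] with j hj ρ hρ
    exact h5 ((Real.dist_right_le_of_mem_uIcc hρ).trans_lt hj)
  constructor
  · refine Metric.tendstoUniformlyOn_iff.2 fun ε hε => ?_
    filter_upwards [h1 (ε / 3) (by positivity), h2 (ε / 3) (by positivity),
      h3 (ε / 3) (by positivity)] with j a1 a2 a3 ρ hρ
    rw [dist_comm, dist_eq_norm]
    rcases le_total ρ (T j) with h | h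
    · linarith [a1 ρ ⟨hρ.1, h⟩]
    · have := norm_sub_le_norm_sub_add_norm_sub (g j ρ) (v ρ) (u ρ)
      rw [norm_sub_rev (v ρ)] at this
      linarith [a2 ρ ⟨h, hρ.2.trans hb.le⟩, a3 ρ (mem_uIcc_of_le h hρ.2)]
  · refine Metric.tendstoUniformlyOn_iff.2 fun ε hε => ?_
    filter_upwards [h1 (ε / 3) (by positivity), h2 (ε / 3) (by positivity),
      h3 (ε / 3) (by positivity)] with j a1 a2 a3 ρ hρ
    rw [dist_comm, dist_eq_norm]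
    rcases le_total ρ (T j) with h | h
    · have := norm_sub_le_norm_sub_add_norm_sub (g j ρ) (u ρ) (v ρ)
      linarith [a1 ρ ⟨ha.le.trans hρ.1, h⟩, a3 ρ (mem_uIcc_of_ge hρ.1 h)]
    · linarith [a2 ρ ⟨h, hρ.2⟩]

end Vale.Agent.P139Z.Family
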